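import Mathlib

/-!
Pool job P226-GEN-L1 (a parallel copy, by helper78): a finite measure on a finite-dimensional
real inner product space that is invariant under all linear isometries integrates positively
1-homogeneous functions like the standard Gaussian measure (up to the ratio of the mean norms).
The proof compares two finite measures through their characteristic functions.
-/

namespace Vale.Agent.Lib.P226.H78

open MeasureTheory ProbabilityTheory

variable {E : Type*} [NormedAddCommGroup E] [InnerProductSpace ℝ E]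

/-- The direction of a vector (zero for the zero vector). -/
noncomputable def dir (w : E) : E := ‖w‖⁻¹ • w

theorem norm_smul_dir (w : E) : ‖w‖ • dir w = w := by
  by_cases hw : w = 0
  · rw [hw, dir, smul_zero, smul_zero]
  · have hn : ‖w‖ ≠ 0 := norm_ne_zero_iff.mpr hw
    rw [dir, smul_smul, mul_inv_cancel₀ hn, one_smul]

theorem norm_dir (w : E) (hw : w ≠ 0) : ‖dir w‖ = 1 := by
  have hn : ‖w‖ ≠ 0 := norm_ne_zero_iff.mpr hw
  rw [dir, norm_smul, norm_inv, norm_norm, inv_mul_cancel₀ hn]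

theorem dir_map (U : E ≃ₗᵢ[ℝ] E) (w : E) : dir (U w) = U (dir w) := by
  rw [dir, dir, U.norm_map, map_smul]

theorem measurable_dir [MeasurableSpace E] [BorelSpace E] [SecondCountableTopology E] :
    Measurable (dir : E → E) :=
  (measurable_norm.inv).smul measurable_id

/-- Invariance: the weighted integral of a function of the inner product of the direction with
a fixed vector depends only on the norm of that vector. -/
theorem inv_integral [MeasurableSpace E] [BorelSpace E]
    (μ : Measure E) (hμ : ∀ U : E ≃ₗᵢ[ℝ] E, μ.map U = μ) (F : ℝ → ℂ) (a a' : E)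
    (haa : ‖a‖ = ‖a'‖) :
    ∫ w, (‖w‖ : ℂ) * F (inner ℝ (dir w) a) ∂μ = ∫ w, (‖w‖ : ℂ) * F (inner ℝ (dir w) a') ∂μ := by
  obtain ⟨U, hU⟩ : ∃ U : E ≃ₗᵢ[ℝ] E, U a = a' := by
    by_cases hd : a = a'
    · exact ⟨LinearIsometryEquiv.refl ℝ E, by rw [hd]; rfl⟩
    · exact ⟨Submodule.reflection (Submodule.span ℝ {a - a'})ᗮ, Submodule.reflection_sub haa⟩
  have h1 : ∫ w, (‖w‖ : ℂ) * F (inner ℝ (dir w) a') ∂μ
      = ∫ w, (‖w‖ : ℂ) * F (inner ℝ (dir w) a') ∂(μ.map U) := by rw [hμ U]
  have h2 : ∫ w, (‖w‖ : ℂ) * F (inner ℝ (dir w) a') ∂(μ.map U)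
      = ∫ w, (‖U w‖ : ℂ) * F (inner ℝ (dir (U w)) a') ∂μ :=
    (U.toHomeomorph.measurableEmbedding).integral_map _
  rw [h1, h2]
  refine integral_congr_ae (Filter.Eventually.of_forall (fun w => ?_))
  show (‖w‖ : ℂ) * F (inner ℝ (dir w) a) = (‖U w‖ : ℂ) * F (inner ℝ (dir (U w)) a')
  rw [U.norm_map, dir_map, ← hU, U.inner_map_map]

theorem norm_weight_exp {F : Type*} [NormedAddCommGroup F] (w : F) (x : ℝ) :
    ‖(‖w‖ : ℂ) * Complex.exp ((x : ℂ) * Complex.I)‖ ≤ ‖w‖ := by
  rw [norm_mul, Complex.norm_exp_ofReal_mul_I, mul_one, Complex.norm_real, norm_norm]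

section main

variable [FiniteDimensional ℝ E] [MeasurableSpace E] [BorelSpace E]

/-- Fubini for integrands bounded by the norm of the first variable. -/
theorem swap_integral (μ : Measure E) [IsFiniteMeasure μ]
    (hint : Integrable (fun w : E => ‖w‖) μ)
    (G : E → E → ℂ) (hG : Measurable (Function.uncurry G)) (hb : ∀ w g, ‖G w g‖ ≤ ‖w‖) :
    ∫ w, ∫ g, G w g ∂(stdGaussian E) ∂μ = ∫ g, ∫ w, G w g ∂μ ∂(stdGaussian E) := by
  refine integral_integral_swap ?_
  refine Integrable.mono' (hint.comp_fst (stdGaussian E)) hG.aestronglyMeasurable ?_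
  exact Filter.Eventually.of_forall (fun p => hb p.1 p.2)


/-- The characteristic function computation. -/
theorem charFun_core (μ : Measure E) [IsFiniteMeasure μ]
    (hμ : ∀ U : E ≃ₗᵢ[ℝ] E, μ.map U = μ) (hint : Integrable (fun w : E => ‖w‖) μ) (t : E) :
    ∫ w, ∫ g, (‖w‖ : ℂ) * Complex.exp (((inner ℝ (dir w) (‖g‖ • t) : ℝ) : ℂ) * Complex.I)
        ∂(stdGaussian E) ∂μ
      = ((∫ w, ‖w‖ ∂μ : ℝ) : ℂ) * Complex.exp (-(‖t‖ : ℂ) ^ 2 / 2) := by
  have hG1 : Measurable (Function.uncurry (fun (w g : E) =>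
      (‖w‖ : ℂ) * Complex.exp (((inner ℝ (dir w) (‖g‖ • t) : ℝ) : ℂ) * Complex.I))) := by
    unfold Function.uncurry dir
    fun_prop
  have hG2 : Measurable (Function.uncurry (fun (w g : E) =>
      (‖w‖ : ℂ) * Complex.exp (((inner ℝ (dir w) (‖t‖ • g) : ℝ) : ℂ) * Complex.I))) := by
    unfold Function.uncurry dir
    fun_prop
  rw [swap_integral μ hint _ hG1 (fun w g => norm_weight_exp w _)]
  have key : ∀ g : E, ∫ w, (‖w‖ : ℂ)
        * Complex.exp (((inner ℝ (dir w) (‖g‖ • t) : ℝ) : ℂ) * Complex.I) ∂μ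
      = ∫ w, (‖w‖ : ℂ) * Complex.exp (((inner ℝ (dir w) (‖t‖ • g) : ℝ) : ℂ) * Complex.I) ∂μ :=
    fun g => inv_integral μ hμ (fun x => Complex.exp ((x : ℂ) * Complex.I)) (‖g‖ • t) (‖t‖ • g)
      (by rw [norm_smul, norm_smul, norm_norm, norm_norm, mul_comm])
  rw [integral_congr_ae (Filter.Eventually.of_forall key),
    ← swap_integral μ hint _ hG2 (fun w g => norm_weight_exp w _)]
  have inner_eq : ∀ w : E, ∫ g, (‖w‖ : ℂ)
        * Complex.exp (((inner ℝ (dir w) (‖t‖ • g) : ℝ) : ℂ) * Complex.I) ∂(stdGaussian E)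
      = (‖w‖ : ℂ) * Complex.exp (-(‖t‖ : ℂ) ^ 2 / 2) := by
    intro w
    rw [integral_const_mul]
    by_cases hw : w = 0
    · rw [hw, norm_zero, Complex.ofReal_zero, zero_mul, zero_mul]
    · congr 1
      have h1 : ∫ g, Complex.exp (((inner ℝ (dir w) (‖t‖ • g) : ℝ) : ℂ) * Complex.I)
          ∂(stdGaussian E) = charFun (stdGaussian E) (‖t‖ • dir w) := by
        rw [charFun_apply]
        refine integral_congr_ae (Filter.Eventually.of_forall (fun g => ?_))
        show Complex.exp (((inner ℝ (dir w) (‖t‖ • g) : ℝ) : ℂ) * Complex.I)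
          = Complex.exp (((inner ℝ g (‖t‖ • dir w) : ℝ) : ℂ) * Complex.I)
        rw [real_inner_smul_right, real_inner_smul_right, real_inner_comm]
      rw [h1, charFun_stdGaussian, norm_smul, norm_norm, norm_dir w hw, mul_one]
  rw [integral_congr_ae (Filter.Eventually.of_forall inner_eq), integral_mul_const]
  congr 1
  exact integral_ofReal

end main

section final

variable [FiniteDimensional ℝ E] [MeasurableSpace E] [BorelSpace E]

/-- The two finite measures agree. -/
theorem measure_eq (μ : Measure E) [IsFiniteMeasure μ]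
    (hμ : ∀ U : E ≃ₗᵢ[ℝ] E, μ.map U = μ) (hint : Integrable (fun w : E => ‖w‖) μ) :
    ((μ.withDensity (fun w => ENNReal.ofReal ‖w‖)).prod (stdGaussian E)).map
        (fun p : E × E => ‖p.2‖ • dir p.1)
      = ENNReal.ofReal (∫ w, ‖w‖ ∂μ) • stdGaussian E := by
  have : IsFiniteMeasure (μ.withDensity (fun w => ENNReal.ofReal ‖w‖)) :=
    isFiniteMeasure_withDensity_ofReal hint.2
  have : IsFiniteMeasure (ENNReal.ofReal (∫ w, ‖w‖ ∂μ) • stdGaussian E) :=
    Measure.smul_finite _ ENNReal.ofReal_ne_top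
  have hb0 : 0 ≤ ∫ w, ‖w‖ ∂μ := integral_nonneg (fun w => norm_nonneg w)
  have hT : Measurable (fun p : E × E => ‖p.2‖ • dir p.1) :=
    (measurable_norm.comp measurable_snd).smul (measurable_dir.comp measurable_fst)
  refine Measure.ext_of_charFun (funext (fun t => ?_))
  have hmeasI : Measurable (fun x : E => Complex.exp (((inner ℝ x t : ℝ) : ℂ) * Complex.I)) := by
    fun_prop
  have hintI : Integrable (fun p : E × E =>
      Complex.exp (((inner ℝ (‖p.2‖ • dir p.1) t : ℝ) : ℂ) * Complex.I))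
      ((μ.withDensity (fun w => ENNReal.ofReal ‖w‖)).prod (stdGaussian E)) := by
    refine Integrable.of_bound (hmeasI.comp hT).aestronglyMeasurable 1 ?_
    exact Filter.Eventually.of_forall (fun p => le_of_eq (Complex.norm_exp_ofReal_mul_I _))
  rw [charFun_apply, charFun_apply, integral_map hT.aemeasurable hmeasI.aestronglyMeasurable,
    integral_prod _ hintI,
    integral_withDensity_eq_integral_toReal_smul (by fun_prop)
      (Filter.Eventually.of_forall (fun _ => ENNReal.ofReal_lt_top)),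
    integral_smul_measure]
  have hL : ∀ w : E, (ENNReal.ofReal ‖w‖).toReal •
        ∫ g, Complex.exp (((inner ℝ (‖g‖ • dir w) t : ℝ) : ℂ) * Complex.I) ∂(stdGaussian E)
      = ∫ g, (‖w‖ : ℂ) * Complex.exp (((inner ℝ (dir w) (‖g‖ • t) : ℝ) : ℂ) * Complex.I)
          ∂(stdGaussian E) := by
    intro w
    rw [ENNReal.toReal_ofReal (norm_nonneg w), integral_const_mul, Complex.real_smul]
    congr 1
    refine integral_congr_ae (Filter.Eventually.of_forall (fun g => ?_))
    show Complex.exp (((inner ℝ (‖g‖ • dir w) t : ℝ) : ℂ) * Complex.I)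
      = Complex.exp (((inner ℝ (dir w) (‖g‖ • t) : ℝ) : ℂ) * Complex.I)
    rw [real_inner_smul_left, real_inner_smul_right]
  rw [integral_congr_ae (Filter.Eventually.of_forall hL), charFun_core μ hμ hint t,
    ENNReal.toReal_ofReal hb0, Complex.real_smul, ← charFun_apply, charFun_stdGaussian]

/-- Pool job P226-GEN-L1: a rotation-invariant finite measure integrates positively
1-homogeneous functions like the standard Gaussian measure. -/
theorem invariant_integral_hom
    (μ : Measure E) [IsFiniteMeasure μ]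
    (hμ : ∀ U : E ≃ₗᵢ[ℝ] E, μ.map U = μ)
    (hint : Integrable (fun w : E => ‖w‖) μ)
    (h : E → ℝ) (hmeas : Measurable h)
    (hhom : ∀ (t : ℝ), 0 ≤ t → ∀ x, h (t • x) = t * h x)
    (C : ℝ) (hC : ∀ x, |h x| ≤ C * ‖x‖) :
    (∫ g, ‖g‖ ∂(stdGaussian E)) * ∫ w, h w ∂μ
      = (∫ w, ‖w‖ ∂μ) * ∫ g, h g ∂(stdGaussian E) := by
  have _hC := hC
  have hb0 : 0 ≤ ∫ w, ‖w‖ ∂μ := integral_nonneg (fun w => norm_nonneg w)
  have hT : Measurable (fun p : E × E => ‖p.2‖ • dir p.1) :=
    (measurable_norm.comp measurable_snd).smul (measurable_dir.comp measurable_fst)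
  have h1 : ∫ x, h x ∂(((μ.withDensity (fun w => ENNReal.ofReal ‖w‖)).prod (stdGaussian E)).map
        (fun p : E × E => ‖p.2‖ • dir p.1))
      = (∫ w, h w ∂μ) * ∫ g, ‖g‖ ∂(stdGaussian E) := by
    rw [integral_map hT.aemeasurable hmeas.aestronglyMeasurable]
    have hfac : ∀ p : E × E, h (‖p.2‖ • dir p.1) = h (dir p.1) * ‖p.2‖ :=
      fun p => by rw [hhom _ (norm_nonneg _), mul_comm]
    rw [integral_congr_ae (Filter.Eventually.of_forall hfac),
      integral_prod_mul (fun w : E => h (dir w)) (fun g : E => ‖g‖)]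
    congr 1
    rw [integral_withDensity_eq_integral_toReal_smul (by fun_prop)
      (Filter.Eventually.of_forall (fun _ => ENNReal.ofReal_lt_top))]
    refine integral_congr_ae (Filter.Eventually.of_forall (fun w => ?_))
    show (ENNReal.ofReal ‖w‖).toReal • h (dir w) = h w
    rw [ENNReal.toReal_ofReal (norm_nonneg w), smul_eq_mul, ← hhom _ (norm_nonneg w),
      norm_smul_dir]
  have h2 : ∫ x, h x ∂(ENNReal.ofReal (∫ w, ‖w‖ ∂μ) • stdGaussian E)
      = (∫ w, ‖w‖ ∂μ) * ∫ g, h g ∂(stdGaussian E) := by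
    rw [integral_smul_measure, ENNReal.toReal_ofReal hb0, smul_eq_mul]
  rw [measure_eq μ hμ hint, h2] at h1
  rw [mul_comm, ← h1]

end final

end Vale.Agent.Lib.P226.H78
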